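import Mathlib
import Vale.Agent.P090.Main
import Vale.Agent.P090.FA2

namespace Vale.Agent.Results.P090.NotBAP

open Vale.Agent.P090

theorem result : ∃ (M : Type) (_ : MetricSpace M), Nonempty M ∧ Countable M ∧
    UniformlyDiscrete M ∧ ∀ o : M, ¬ HasBAP ↥(LipschitzFree M o) :=
  ⟨Pt, inferInstance, inferInstance, inferInstance, uniformlyDiscrete_Pt,
    fun o => not_hasBAP o (freeLike o) cert_family⟩

end Vale.Agent.Results.P090.NotBAP
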