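import Mathlib
import Vale.Agent.P090.EllDefs
import Vale.Agent.P090.EllFree
import Vale.Agent.P090.Main

namespace Vale.Agent.Results.P090.NotBAPEll

open Vale.Agent.P090.Ell

theorem result : ∃ (M : Type) (_ : MetricSpace M), Nonempty M ∧ Countable M ∧
    UniformlyDiscrete M ∧ ∀ o : M, ¬ HasBAP (LipschitzFree M o) :=
  ⟨Vale.Agent.P090.Pt, inferInstance, inferInstance, inferInstance,
    Vale.Agent.P090.uniformlyDiscrete_Pt,
    fun o h => Vale.Agent.P090.not_hasBAP o (freeLike o) Vale.Agent.P090.cert_family h⟩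

end Vale.Agent.Results.P090.NotBAPEll
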